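import Mathlib

/-!
# Euclidean density of nonempty Zariski open subsets of an irreducible affine variety
(helper972, P271, block DENS)
-/

namespace Vale.Agent.P271.Dens

open Polynomial Filter Topology

set_option linter.unusedSectionVars false
set_option linter.style.haveILetI false

/-- `ℂ`-points lift along integral ring maps. -/
theorem exists_lift {R A : Type*} [CommRing R] [CommRing A] [Algebra ℂ R] [Algebra ℂ A]
    [Algebra.FiniteType ℂ A] (g : R →ₐ[ℂ] A) (hg : g.toRingHom.IsIntegral) (ψ : R →ₐ[ℂ] ℂ)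
    (hker : ∀ r, g r = 0 → ψ r = 0) :
    ∃ φ : A →ₐ[ℂ] ℂ, ∀ r, φ (g r) = ψ r := by
  letI : Algebra R A := g.toRingHom.toAlgebra
  haveI : Algebra.IsIntegral R A := ⟨hg⟩
  have hψ : Function.Surjective ψ := fun c => ⟨algebraMap ℂ R c, by simp⟩
  haveI : (RingHom.ker ψ).IsMaximal := RingHom.ker_isMaximal_of_surjective ψ hψ
  obtain ⟨Q, hQ, hQ'⟩ := Ideal.exists_ideal_over_maximal_of_isIntegral (S := A)
    (RingHom.ker ψ) (by
      intro r hr
      exact hker r hr)
  letI : Field (A ⧸ Q) := Ideal.Quotient.field Q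
  haveI : Module.Finite ℂ (A ⧸ Q) := finite_of_finite_type_of_isJacobsonRing ℂ (A ⧸ Q)
  have hbij : Function.Bijective (algebraMap ℂ (A ⧸ Q)) :=
    IsAlgClosed.algebraMap_bijective_of_isIntegral
  let e : ℂ ≃ₐ[ℂ] (A ⧸ Q) := AlgEquiv.ofBijective (Algebra.ofId ℂ (A ⧸ Q)) hbij
  refine ⟨(e.symm : (A ⧸ Q) →ₐ[ℂ] ℂ).comp (Ideal.Quotient.mkₐ ℂ Q), fun r => ?_⟩
  have h1 : r - algebraMap ℂ R (ψ r) ∈ RingHom.ker ψ := by
    rw [RingHom.mem_ker, map_sub, AlgHom.commutes]
    simp
  rw [← hQ', Ideal.mem_comap] at h1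
  have h2 : g (r - algebraMap ℂ R (ψ r)) ∈ Q := h1
  rw [map_sub, AlgHom.commutes] at h2
  have h3 : Ideal.Quotient.mkₐ ℂ Q (g r) = algebraMap ℂ (A ⧸ Q) (ψ r) := by
    have := Ideal.Quotient.eq.mpr h2
    exact this
  have h4 : ((e.symm : (A ⧸ Q) →ₐ[ℂ] ℂ).comp (Ideal.Quotient.mkₐ ℂ Q)) (g r)
      = e.symm (Ideal.Quotient.mkₐ ℂ Q (g r)) := rfl
  rw [h4, h3]
  have h5 : e (ψ r) = algebraMap ℂ (A ⧸ Q) (ψ r) := rfl
  rw [← h5]
  simp

/-- A monic complex polynomial of positive degree has a root of modulus at most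
`|constant coefficient|^{1/deg}`. -/
theorem exists_small_root (G : ℂ[X]) (hm : G.Monic) (hd : 0 < G.natDegree) :
    ∃ t, G.IsRoot t ∧ ‖t‖ ^ G.natDegree ≤ ‖G.coeff 0‖ := by
  have hsp : G.Splits := IsAlgClosed.splits G
  have hcard := hsp.natDegree_eq_card_roots
  have h0 := hsp.coeff_zero_eq_prod_roots_of_monic hm
  have hne : G.roots ≠ 0 := by
    intro h
    rw [h] at hcard
    simp at hcard
    omega
  obtain ⟨t, ht, hmin⟩ : ∃ t ∈ G.roots, ∀ u ∈ G.roots, ‖t‖ ≤ ‖u‖ := by
    obtain ⟨a, ha⟩ := Multiset.exists_mem_of_ne_zero hne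
    obtain ⟨t, ht, hmin⟩ := Finset.exists_min_image G.roots.toFinset (fun u => ‖u‖)
      ⟨a, by simpa using ha⟩
    exact ⟨t, by simpa using ht, fun u hu => hmin u (by simpa using hu)⟩
  refine ⟨t, (mem_roots'.mp ht).2, ?_⟩
  rw [h0, norm_mul, norm_pow, norm_neg, norm_one, one_pow, one_mul, hcard]
  have key : ∀ s : Multiset ℂ, (∀ u ∈ s, ‖t‖ ≤ ‖u‖) → ‖t‖ ^ (Multiset.card s) ≤ ‖s.prod‖ := by
    intro s
    induction s using Multiset.induction_on with
    | empty => intro _; simp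
    | cons a s ih =>
      intro h
      rw [Multiset.card_cons, Multiset.prod_cons, norm_mul, pow_succ, mul_comm]
      exact mul_le_mul (h a (Multiset.mem_cons_self a s))
        (ih fun u hu => h u (Multiset.mem_cons_of_mem hu)) (by positivity) (by positivity)
  exact key _ hmin

theorem root_bound (G : ℂ[X]) (hm : G.Monic) {t : ℂ} (ht : G.IsRoot t) :
    ‖t‖ ≤ (∑ i ∈ Finset.range G.natDegree, ‖G.coeff i‖) + 1 := by
  have h := (IsRoot.norm_lt_cauchyBound hm.ne_zero ht).le
  have h1 : cauchyBound G ≤ (∑ i ∈ Finset.range G.natDegree, ‖G.coeff i‖₊) + 1 := by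
    unfold cauchyBound
    rw [hm.leadingCoeff, nnnorm_one, div_one]
    gcongr
    refine Finset.sup_le fun i hi => ?_
    exact Finset.single_le_sum (f := fun i => ‖G.coeff i‖₊) (fun _ _ => zero_le) hi
  have h2 := h.trans h1
  have h3 : ((‖t‖₊ : NNReal) : ℝ) ≤ (((∑ i ∈ Finset.range G.natDegree, ‖G.coeff i‖₊) + 1 : NNReal) : ℝ) :=
    NNReal.coe_le_coe.mpr h2
  simpa using h3

theorem continuous_aeval_pt {s : ℕ} (r : MvPolynomial (Fin s) ℂ) :
    Continuous fun p : Fin s → ℂ => MvPolynomial.aeval p r := by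
  have h : (fun p : Fin s → ℂ => MvPolynomial.aeval p r) = fun p => MvPolynomial.eval p r := by
    funext p
    rw [MvPolynomial.aeval_eq_eval]
  rw [h]
  exact MvPolynomial.continuous_eval r

section

variable {A : Type*} [CommRing A] [IsDomain A] [Algebra ℂ A] [Algebra.FiniteType ℂ A] {s : ℕ}
  (g : MvPolynomial (Fin s) ℂ →ₐ[ℂ] A)

/-- value at a point is a root of the specialised integral equation. -/
theorem isRoot_of_point (φ : A →ₐ[ℂ] ℂ) (p : Fin s → ℂ)
    (hφ : ∀ r, φ (g r) = MvPolynomial.aeval p r) (a : A) (G : (MvPolynomial (Fin s) ℂ)[X])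
    (hG : Polynomial.eval₂ g.toRingHom a G = 0) :
    (G.map (MvPolynomial.aeval p : MvPolynomial (Fin s) ℂ →ₐ[ℂ] ℂ).toRingHom).IsRoot (φ a) := by
  rw [IsRoot.def, Polynomial.eval_map]
  have h1 : (φ.toRingHom) (Polynomial.eval₂ g.toRingHom a G) = 0 := by rw [hG, map_zero]
  rw [Polynomial.hom_eval₂] at h1
  have h2 : φ.toRingHom.comp g.toRingHom
      = (MvPolynomial.aeval p : MvPolynomial (Fin s) ℂ →ₐ[ℂ] ℂ).toRingHom := by
    ext r
    · simp
    · exact hφ _
  rw [h2] at h1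
  exact h1

/-- **A finite map to affine space is open at every point of an irreducible variety.** -/
theorem exists_near (hinj : Function.Injective g) (hint : g.toRingHom.IsIntegral)
    (z : A →ₐ[ℂ] ℂ) (p : ℕ → (Fin s → ℂ))
    (hp : Tendsto p atTop (𝓝 (fun i => z (g (MvPolynomial.X i))))) :
    ∃ φ : ℕ → (A →ₐ[ℂ] ℂ), (∀ j r, φ j (g r) = MvPolynomial.aeval (p j) r) ∧
      ∀ a, Tendsto (fun j => φ j a) atTop (𝓝 (z a)) := by
  classical
  letI : Algebra (MvPolynomial (Fin s) ℂ) A := g.toRingHom.toAlgebra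
  haveI : Algebra.IsIntegral (MvPolynomial (Fin s) ℂ) A := ⟨hint⟩
  haveI : FaithfulSMul (MvPolynomial (Fin s) ℂ) A :=
    (faithfulSMul_iff_algebraMap_injective _ _).mpr hinj
  haveI : Module.IsTorsionFree (MvPolynomial (Fin s) ℂ) A := inferInstance
  set p₀ : Fin s → ℂ := fun i => z (g (MvPolynomial.X i)) with hp₀
  have hz : ∀ r, z (g r) = MvPolynomial.aeval p₀ r := by
    intro r
    have : z.comp g = MvPolynomial.aeval p₀ := by
      apply MvPolynomial.algHom_ext
      intro i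
      simp [hp₀]
    exact congrArg (fun h : MvPolynomial (Fin s) ℂ →ₐ[ℂ] ℂ => h r) this
  have hI : ∀ a : A, IsIntegral (MvPolynomial (Fin s) ℂ) a := fun a => Algebra.IsIntegral.isIntegral a
  let G : A → (MvPolynomial (Fin s) ℂ)[X] := fun a => minpoly (MvPolynomial (Fin s) ℂ) a
  have hGm : ∀ a, (G a).Monic := fun a => minpoly.monic (hI a)
  have hG0 : ∀ a, Polynomial.eval₂ g.toRingHom a (G a) = 0 := fun a => minpoly.aeval _ a
  let ev : (Fin s → ℂ) → (MvPolynomial (Fin s) ℂ →+* ℂ) :=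
    fun q => (MvPolynomial.aeval q : MvPolynomial (Fin s) ℂ →ₐ[ℂ] ℂ).toRingHom
  -- the fibre
  let F : Set (A →ₐ[ℂ] ℂ) := {φ | ∀ r, φ (g r) = MvPolynomial.aeval p₀ r}
  have hF : F.Finite := by
    obtain ⟨S, hS⟩ := (inferInstance : Algebra.FiniteType ℂ A).out
    let Φ : (A →ₐ[ℂ] ℂ) → (S → ℂ) := fun φ x => φ x
    have hfin : (Set.pi Set.univ fun x : S => {t : ℂ | ((G x).map (ev p₀)).IsRoot t}).Finite := by
      refine Set.Finite.pi fun x => ?_
      have hne : (G x).map (ev p₀) ≠ 0 := ((hGm x).map _).ne_zero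
      exact Set.Finite.subset (((G x).map (ev p₀)).roots.toFinset.finite_toSet)
        fun t ht => by
          have ht1 : ((G x).map (ev p₀)).IsRoot t := ht
          have ht2 : t ∈ ((G x).map (ev p₀)).roots := (mem_roots hne).mpr ht1
          simpa using ht2
    refine Set.Finite.of_finite_image (f := Φ) (hfin.subset ?_) ?_
    · rintro _ ⟨φ, hφ, rfl⟩ x _
      exact isRoot_of_point g φ p₀ hφ x (G x) (hG0 x)
    · intro φ _ ψ _ h
      refine AlgHom.ext_of_adjoin_eq_top hS ?_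
      intro x hx
      exact congrFun h ⟨x, hx⟩
  -- the separating function
  have hq : ∀ φ : A →ₐ[ℂ] ℂ, φ ≠ z → ∃ q : A, z q = 1 ∧ φ q = 0 := by
    intro φ hφ
    obtain ⟨a, ha⟩ : ∃ a, φ a ≠ z a := by
      by_contra h
      push Not at h
      exact hφ (AlgHom.ext h)
    have hne : z a - φ a ≠ 0 := sub_ne_zero.mpr (Ne.symm ha)
    refine ⟨(z a - φ a)⁻¹ • (a - algebraMap ℂ A (φ a)), ?_, ?_⟩
    · rw [map_smul, map_sub, AlgHom.commutes, smul_eq_mul]
      exact inv_mul_cancel₀ hne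
    · rw [map_smul, map_sub, AlgHom.commutes]
      simp
  choose! q hq1 hq2 using hq
  obtain ⟨l, hl0, hl1⟩ : ∃ l : A, z l = 0 ∧ ∀ φ ∈ F, φ ≠ z → φ l ≠ 0 := by
    refine ⟨1 - ∏ φ ∈ hF.toFinset.erase z, q φ, ?_, ?_⟩
    · rw [map_sub, map_one, map_prod, Finset.prod_eq_one, sub_self]
      intro φ hφ
      exact hq1 φ (Finset.ne_of_mem_erase hφ)
    · intro φ hφ hne
      rw [map_sub, map_one, map_prod, Finset.prod_eq_zero (i := φ)]
      · simp
      · exact Finset.mem_erase.mpr ⟨hne, hF.mem_toFinset.mpr hφ⟩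
      · exact hq2 φ hne
  -- degree of the minimal polynomial of `l`
  have hdeg : 0 < (G l).natDegree := minpoly.natDegree_pos (hI l)
  have hdegm : ∀ q, ((G l).map (ev q)).natDegree = (G l).natDegree :=
    fun q => (hGm l).natDegree_map _
  -- points over `p j`
  have hex : ∀ j, ∃ φ : A →ₐ[ℂ] ℂ, (∀ r, φ (g r) = MvPolynomial.aeval (p j) r) ∧
      ‖φ l‖ ^ (G l).natDegree ≤ ‖ev (p j) ((G l).coeff 0)‖ := by
    intro j
    obtain ⟨t, ht, ht'⟩ := exists_small_root ((G l).map (ev (p j))) ((hGm l).map _)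
      (by rw [hdegm]; exact hdeg)
    rw [hdegm, Polynomial.coeff_map] at ht'
    let ψ : (MvPolynomial (Fin s) ℂ)[X] →ₐ[ℂ] ℂ :=
      { toRingHom := Polynomial.eval₂RingHom (ev (p j)) t
        commutes' := fun c => by
          have : algebraMap ℂ ((MvPolynomial (Fin s) ℂ)[X]) c
            = Polynomial.C (MvPolynomial.C c) := rfl
          simp [this, ev] }
    let γ : (MvPolynomial (Fin s) ℂ)[X] →ₐ[ℂ] A :=
      { toRingHom := Polynomial.eval₂RingHom g.toRingHom l
        commutes' := fun c => by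
          have : algebraMap ℂ ((MvPolynomial (Fin s) ℂ)[X]) c
            = Polynomial.C (MvPolynomial.C c) := rfl
          have h2 : g (MvPolynomial.C c) = algebraMap ℂ A c := g.commutes c
          simp [this, h2] }
    obtain ⟨φ, hφ⟩ := exists_lift γ (by
        intro a
        obtain ⟨Q, hQ, hQ'⟩ := hint a
        refine ⟨Q.map Polynomial.C, hQ.map _, ?_⟩
        rw [Polynomial.eval₂_map]
        have h1 : γ.toRingHom.comp (Polynomial.C : MvPolynomial (Fin s) ℂ →+* _) = g.toRingHom := by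
          apply RingHom.ext
          intro r
          change Polynomial.eval₂ g.toRingHom l (Polynomial.C r) = g.toRingHom r
          rw [Polynomial.eval₂_C]
        rw [h1]
        exact hQ') ψ (by
        intro r hr
        have h1 : Polynomial.aeval l r = 0 := hr
        rw [minpoly.isIntegrallyClosed_dvd_iff (hI l)] at h1
        obtain ⟨k, rfl⟩ := h1
        have h2 : Polynomial.eval₂ (ev (p j)) t (G l) = 0 := by
          rw [IsRoot.def, Polynomial.eval_map] at ht
          exact ht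
        change Polynomial.eval₂ (ev (p j)) t (minpoly (MvPolynomial (Fin s) ℂ) l * k) = 0
        rw [Polynomial.eval₂_mul, h2, zero_mul])
    refine ⟨φ, fun r => ?_, ?_⟩
    · have := hφ (Polynomial.C r)
      simpa [γ, ψ, ev] using this
    · have := hφ Polynomial.X
      have h3 : φ l = t := by simpa [γ, ψ] using this
      rw [h3]
      exact ht'
  choose φ hφ1 hφ2 using hex
  refine ⟨φ, hφ1, ?_⟩
  -- `φ j l → 0`
  have hev : ∀ r, Tendsto (fun j => ev (p j) r) atTop (𝓝 (ev p₀ r)) := by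
    intro r
    exact ((continuous_aeval_pt r).tendsto p₀).comp hp
  have hcoef0 : ev p₀ ((G l).coeff 0) = 0 := by
    have h1 := isRoot_of_point g z p₀ hz l (G l) (hG0 l)
    rw [hl0, IsRoot.def, ← Polynomial.coeff_zero_eq_eval_zero, Polynomial.coeff_map] at h1
    exact h1
  have hl : Tendsto (fun j => φ j l) atTop (𝓝 0) := by
    rw [tendsto_zero_iff_norm_tendsto_zero]
    have h1 : Tendsto (fun j => ‖ev (p j) ((G l).coeff 0)‖) atTop (𝓝 0) := by
      have := (hev ((G l).coeff 0)).norm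
      rw [hcoef0, norm_zero] at this
      exact this
    have h2 : Tendsto (fun j => ‖φ j l‖ ^ (G l).natDegree) atTop (𝓝 0) :=
      squeeze_zero (fun j => by positivity) hφ2 h1
    have h3 := h2.rpow_const (p := 1 / ((G l).natDegree : ℝ)) (Or.inr (by positivity))
    rw [Real.zero_rpow (by positivity)] at h3
    refine h3.congr fun j => ?_
    rw [← Real.rpow_natCast, ← Real.rpow_mul (norm_nonneg _), mul_one_div_cancel (by positivity),
      Real.rpow_one]
  -- boundedness
  have hbd : ∀ a, ∃ C : ℝ, ∀ᶠ j in atTop, φ j a ∈ Metric.closedBall (0 : ℂ) C := by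
    intro a
    have h1 : Tendsto (fun j => (∑ i ∈ Finset.range (G a).natDegree,
        ‖ev (p j) ((G a).coeff i)‖) + 1) atTop
        (𝓝 ((∑ i ∈ Finset.range (G a).natDegree, ‖ev p₀ ((G a).coeff i)‖) + 1)) :=
      (tendsto_finsetSum _ fun i _ => (hev _).norm).add_const _
    refine ⟨(∑ i ∈ Finset.range (G a).natDegree, ‖ev p₀ ((G a).coeff i)‖) + 1 + 1, ?_⟩
    filter_upwards [h1.eventually (gt_mem_nhds (lt_add_one _))] with j hj
    rw [mem_closedBall_zero_iff]
    have h2 := root_bound ((G a).map (ev (p j))) ((hGm a).map _)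
      (isRoot_of_point g (φ j) (p j) (hφ1 j) a (G a) (hG0 a))
    rw [(hGm a).natDegree_map] at h2
    simp only [Polynomial.coeff_map] at h2
    exact h2.trans hj.le
  intro a
  rw [tendsto_iff_ultrafilter]
  intro U hU
  have hlim : ∀ b, ∃ c, Tendsto (fun j => φ j b) U (𝓝 c) := by
    intro b
    obtain ⟨C, hC⟩ := hbd b
    obtain ⟨c, -, hc⟩ := (isCompact_closedBall (0 : ℂ) C).ultrafilter_le_nhds
      (U.map fun j => φ j b) (by
        rw [le_principal_iff]
        exact hC.filter_mono hU)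
    exact ⟨c, hc⟩
  choose lam hlam using hlim
  let Λ : A →ₐ[ℂ] ℂ :=
    { toFun := lam
      map_one' := tendsto_nhds_unique (hlam 1) (by simp)
      map_zero' := tendsto_nhds_unique (hlam 0) (by simp)
      map_mul' := fun b c => tendsto_nhds_unique (hlam (b * c)) (by
        simpa using (hlam b).mul (hlam c))
      map_add' := fun b c => tendsto_nhds_unique (hlam (b + c)) (by
        simpa using (hlam b).add (hlam c))
      commutes' := fun c => tendsto_nhds_unique (hlam _) (by simp) }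
  have hΛF : Λ ∈ F := by
    intro r
    refine tendsto_nhds_unique (hlam (g r)) ?_
    simp_rw [hφ1]
    exact (hev r).mono_left hU
  have hΛl : Λ l = 0 := tendsto_nhds_unique (hlam l) (hl.mono_left hU)
  have hΛz : Λ = z := by
    by_contra h
    exact hl1 Λ hΛF h hΛl
  have : z a = lam a := by rw [← hΛz]; rfl
  rw [this]
  exact hlam a

/-- **Density, algebra form.**  A nonzero element of a finitely generated domain over `ℂ` is
nonzero at points arbitrarily near any given point. -/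
theorem dens_alg (f : A) (hf : f ≠ 0) (z : A →ₐ[ℂ] ℂ) :
    ∃ φ : ℕ → (A →ₐ[ℂ] ℂ), (∀ j, φ j f ≠ 0) ∧
      ∀ a, Tendsto (fun j => φ j a) atTop (𝓝 (z a)) := by
  classical
  obtain ⟨s, g, hinj, hint⟩ := exists_integral_inj_algHom_of_fg ℂ A
  letI : Algebra (MvPolynomial (Fin s) ℂ) A := g.toRingHom.toAlgebra
  haveI : Algebra.IsIntegral (MvPolynomial (Fin s) ℂ) A := ⟨hint⟩
  haveI : FaithfulSMul (MvPolynomial (Fin s) ℂ) A :=
    (faithfulSMul_iff_algebraMap_injective _ _).mpr hinj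
  have hI : IsIntegral (MvPolynomial (Fin s) ℂ) f := Algebra.IsIntegral.isIntegral f
  set G := minpoly (MvPolynomial (Fin s) ℂ) f with hG
  have hc : G.coeff 0 ≠ 0 := by
    intro h0
    obtain ⟨k, hk⟩ := Polynomial.X_dvd_iff.mpr h0
    have hGm : G.Monic := minpoly.monic hI
    have hk0 : k ≠ 0 := by
      rintro rfl
      rw [mul_zero] at hk
      exact hGm.ne_zero hk
    have h1 : Polynomial.aeval f G = 0 := minpoly.aeval _ f
    rw [hk, map_mul, Polynomial.aeval_X] at h1
    have h2 : Polynomial.aeval f k = 0 := (mul_eq_zero.mp h1).resolve_left hf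
    have h3 := minpoly.IsIntegrallyClosed.degree_le_of_ne_zero (s := f) hk0 h2
    rw [← hG, hk, Polynomial.degree_mul, Polynomial.degree_X,
      Polynomial.degree_eq_natDegree hk0] at h3
    have h4 : (1 + k.natDegree : ℕ) ≤ k.natDegree := by exact_mod_cast h3
    omega
  set p₀ : Fin s → ℂ := fun i => z (g (MvPolynomial.X i)) with hp₀
  -- points where `c` does not vanish
  have hpt : ∀ j : ℕ, ∃ p : Fin s → ℂ, (∀ i, p i ∈ Metric.ball (p₀ i) (1 / ((j : ℝ) + 1))) ∧
      MvPolynomial.eval p (G.coeff 0) ≠ 0 := by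
    intro j
    by_contra h
    push Not at h
    apply hc
    refine MvPolynomial.funext_set (fun i => Metric.ball (p₀ i) (1 / ((j : ℝ) + 1)))
      (fun i => ?_) (fun x hx => ?_)
    · have : (Metric.ball (p₀ i) (1 / ((j : ℝ) + 1))).Nonempty := ⟨p₀ i, by
        simp; positivity⟩
      exact infinite_of_mem_nhds (p₀ i) (Metric.ball_mem_nhds _ (by positivity))
    · rw [map_zero]
      exact h x fun i => hx i (Set.mem_univ i)
  choose p hp1 hp2 using hpt
  have hp : Tendsto p atTop (𝓝 p₀) := by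
    rw [tendsto_pi_nhds]
    intro i
    rw [Metric.tendsto_atTop]
    intro ε hε
    obtain ⟨N, hN⟩ := exists_nat_one_div_lt hε
    refine ⟨N, fun n hn => ?_⟩
    have h1 := hp1 n i
    rw [Metric.mem_ball] at h1
    refine h1.trans (lt_of_le_of_lt ?_ hN)
    exact one_div_le_one_div_of_le (by positivity) (by exact_mod_cast Nat.succ_le_succ hn)
  obtain ⟨φ, hφ1, hφ2⟩ := exists_near g hinj hint z p hp
  refine ⟨φ, fun j h0 => ?_, hφ2⟩
  have h1 := isRoot_of_point g (φ j) (p j) (hφ1 j) f G (minpoly.aeval _ f)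
  rw [h0, IsRoot.def, ← Polynomial.coeff_zero_eq_eval_zero, Polynomial.coeff_map] at h1
  apply hp2 j
  rw [← MvPolynomial.aeval_eq_eval]
  exact h1

end

/-- **DENS.**  For a prime `P` of `ℂ[x]`, `f ∉ P` and `z ∈ Z(P)`, the point `z` is a limit of points
`y j ∈ Z(P)` with `f (y j) ≠ 0`. -/
theorem dens_seq {σ : Type*} [Finite σ] (P : Ideal (MvPolynomial σ ℂ)) [P.IsPrime]
    (f : MvPolynomial σ ℂ) (hf : f ∉ P) (z : σ → ℂ) (hz : ∀ g ∈ P, MvPolynomial.eval z g = 0) :
    ∃ y : ℕ → (σ → ℂ), (∀ j, ∀ g ∈ P, MvPolynomial.eval (y j) g = 0) ∧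
      (∀ j, MvPolynomial.eval (y j) f ≠ 0) ∧ Tendsto y atTop (𝓝 z) := by
  let A := MvPolynomial σ ℂ ⧸ P
  let zz : A →ₐ[ℂ] ℂ := Ideal.Quotient.liftₐ P (MvPolynomial.aeval z) (fun a ha => by
    rw [MvPolynomial.aeval_eq_eval]; exact hz a ha)
  obtain ⟨φ, h1, h2⟩ := dens_alg (A := A) (Ideal.Quotient.mk P f)
    (fun h => hf (Ideal.Quotient.eq_zero_iff_mem.mp h)) zz
  have hev : ∀ j g, φ j (Ideal.Quotient.mk P g)
      = MvPolynomial.eval (fun i => φ j (Ideal.Quotient.mk P (MvPolynomial.X i))) g := by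
    intro j g
    have : (φ j).comp (Ideal.Quotient.mkₐ ℂ P)
        = MvPolynomial.aeval (fun i => φ j (Ideal.Quotient.mk P (MvPolynomial.X i))) := by
      apply MvPolynomial.algHom_ext
      intro i
      rw [MvPolynomial.aeval_X]
      rfl
    have h3 := congrArg (fun h : MvPolynomial σ ℂ →ₐ[ℂ] ℂ => h g) this
    rw [MvPolynomial.aeval_eq_eval] at h3
    exact h3
  refine ⟨fun j i => φ j (Ideal.Quotient.mk P (MvPolynomial.X i)), fun j g hg => ?_, fun j => ?_, ?_⟩
  · rw [← hev, Ideal.Quotient.eq_zero_iff_mem.mpr hg, map_zero]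
  · rw [← hev]
    exact h1 j
  · rw [tendsto_pi_nhds]
    intro i
    have := h2 (Ideal.Quotient.mk P (MvPolynomial.X i))
    have h4 : zz (Ideal.Quotient.mk P (MvPolynomial.X i)) = z i := by
      change MvPolynomial.aeval z (MvPolynomial.X i) = z i
      rw [MvPolynomial.aeval_X]
    rw [h4] at this
    exact this

theorem dens {σ : Type*} [Finite σ] (P : Ideal (MvPolynomial σ ℂ)) [P.IsPrime]
    (f : MvPolynomial σ ℂ) (hf : f ∉ P) (z : σ → ℂ) (hz : ∀ g ∈ P, MvPolynomial.eval z g = 0) :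
    z ∈ closure {y : σ → ℂ | (∀ g ∈ P, MvPolynomial.eval y g = 0) ∧ MvPolynomial.eval y f ≠ 0} := by
  obtain ⟨y, h1, h2, h3⟩ := dens_seq P f hf z hz
  exact mem_closure_of_tendsto h3 (Eventually.of_forall fun j => ⟨h1 j, h2 j⟩)

end Vale.Agent.P271.Dens
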